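import Vale.Agent.P088.R2.H475.A.DeepA
import Vale.Agent.P088.R2.H747.A.Rows
import Vale.Agent.P088.R2.H281.EP.Sb

/-!
# P088, stage 3, zone A: row A-DEEP
-/

open Set Filter
open scoped ContDiff Topology

noncomputable section

namespace Vale.Agent.P088.R2.H475.A

open Vale.Agent.P088.LR
open Vale.Agent.P088.HY hiding dd rr
open Vale.Agent.P088.R2.H31.EP Vale.Agent.P088.R2.H747.A
open Vale.Agent.P088.R2.H464.Cu (mid dif rq)

variable {n : ℕ}

/-- `r²` is nearly `|x - y|²`. -/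
theorem r2_near {q : Cst} {d : Pk n} (h : PkOk q d) (h0 : 0 ≤ q.ε) (hε : n * q.ε ≤ 1 / 100)
    (z : VV n) : |d.r2 z - HY.sq (z.1 - z.2)| ≤ 1 / 50 * HY.sq (z.1 - z.2) := by
  have hs : ∀ x i j, |d.s₁ x i j - (1 : Matrix (Fin n) (Fin n) ℝ) i j| ≤ q.ε := by
    intro x i j
    have := h.rg.cl₁ i j 0 (by norm_num) x
    rw [norm_iteratedFDeriv_zero, pow_zero, mul_one] at this
    exact this
  have := H281.EP.r2_bd (R := 1) hs h0 hε z
  simpa [Pk.r2] using this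

/-- The numbers of row A-DEEP. -/
structure DpC (a : ℝ) (q : Cst) : Prop where
  κ : 0 < q.κ₁
  c : 0 < q.c₀
  R : 0 < q.R
  es : q.es ≤ 1
  r1 : 0 < q.r₁
  r2 : q.r₁ ≤ 2 * (q.κ₁ * q.R)
  ex : 2 * Real.exp (-(3 / 2 * √(q.r₁ * q.κ₁ / 2) * √q.R)) ≤ a / q.R
  lS : ∀ r, 0 < r → lS q r ≤ 1 / 10 * (q.κ₁ * q.R) + 4 / 5 * r
  ε : 0 ≤ q.ε
  nε : n * q.ε ≤ 1 / 100

theorem evDp {a : Cst → ℝ} (ha : NB_R a) (ha0 : ∀ q, 0 < a q) :
    EvC fun q => DpC (n := n) (a q) q := by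
  have h1 : EvC fun q => q.es ≤ 1 := by
    have := EvC.at_es (fun _ t => t ≤ 1) fun _ => sml_le one_pos
    exact this
  have h2 : EvC fun q => (n : ℝ) * q.ε ≤ 1 / 100 := by
    have := EvC.at_ε (fun _ t => (n : ℝ) * t ≤ 1 / 100) fun _ => by
      refine ev_sml (a := 1 / (100 * ((n : ℝ) + 1))) (by positivity) fun t h0 h1 => ?_
      rw [le_div_iff₀ (by positivity)] at h1
      nlinarith
    exact this
  have h3 : EvC fun q => 0 < q.κ₁ → 0 < q.r₁ → 0 < q.e₁ → q.r₁ ≤ 2 * (q.κ₁ * q.R) ∧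
      2 * Real.exp (-(3 / 2 * √(q.r₁ * q.κ₁ / 2) * √q.R)) ≤ a q / q.R ∧
      ∀ r, 0 < r → lS q r ≤ 1 / 10 * (q.κ₁ * q.R) + 4 / 5 * r := by
    have := EvC.at_R (fun q t => 0 < q.κ₁ → 0 < q.r₁ → 0 < q.e₁ → q.r₁ ≤ 2 * (q.κ₁ * t) ∧
      2 * Real.exp (-(3 / 2 * √(q.r₁ * q.κ₁ / 2) * √t)) ≤ a q / t ∧
      ∀ r, 0 < r → lS q r ≤ 1 / 10 * (q.κ₁ * t) + 4 / 5 * r) fun q => by
        by_cases h : 0 < q.κ₁ ∧ 0 < q.r₁ ∧ 0 < q.e₁
        · obtain ⟨a1, a2, a3⟩ := h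
          obtain ⟨C, hC⟩ := log_S a3
          have b1 : Tendsto (fun t : ℝ => 2 * (q.κ₁ * t)) atTop atTop :=
            (tendsto_id.const_mul_atTop a1).const_mul_atTop two_pos
          have b2 : Tendsto (fun t : ℝ => 1 / 10 * (q.κ₁ * t)) atTop atTop :=
            (tendsto_id.const_mul_atTop a1).const_mul_atTop (by norm_num)
          filter_upwards [b1.eventually_ge_atTop q.r₁, b2.eventually_ge_atTop C,
            str_exp (c := 3 / 2 * √(q.r₁ * q.κ₁ / 2)) (by positivity) (ha0 q)] with t c1 c2 c3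
          refine fun _ _ _ => ⟨c1, c3, fun r hr => ?_⟩
          have := hC r hr
          change Real.log (H644.Ph 2 (4 / 5) q.e₁ 20 (1 / 10) (r ^ 2)) ≤ _
          linarith
        · exact Eventually.of_forall fun t b1 b2 b3 => absurd ⟨b1, b2, b3⟩ h
    refine this.mono fun q hq => ?_
    have e : a q.b_R = a q := ha q
    have := hq
    simp only [e] at this
    exact this
  refine (((EvC.pos.and h1).and h2).and h3).mono fun q hq => ?_
  obtain ⟨⟨⟨⟨p1, p2, p3⟩, a1⟩, a2⟩, a3⟩ := hq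
  have k1 := p2.1
  have k2 : 0 < q.r₁ := by
    unfold Cst.r₁
    have := p2.2.2.1
    have : 0 < q.M₀ := by linarith [p3.1]
    positivity
  obtain ⟨b1, b2, b3⟩ := a3 k1 k2 p1.2.1
  exact ⟨k1, p1.2.2.2.2.2.1, by linarith [p3.2.2.2.2.2], a1, k2, b1, b2, b3, p3.2.2.1.le, a2⟩

/-- **Row A-DEEP.** -/
theorem rowDeep (n : ℕ) : RowDeep n := by
  intro a ha ha0
  refine (evDp (n := n) ha ha0).mono fun q hq d hd z hz hu => ?_
  obtain ⟨z1, z2, -⟩ := hz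
  have hK : 0 < q.κ₁ * q.R := mul_pos hq.κ hq.R
  have hr2 : 0 < d.r2 z := lt_trans (by have := hq.c; positivity) z1
  have hr : 0 < rr d z := Real.sqrt_pos.2 hr2
  have e1 := (abs_le.1 (r2_near hd hq.ε hq.nε z)).2
  have e2 : d.r2 z ≤ (101 / 100 * (q.κ₁ * q.R)) ^ 2 := by nlinarith
  have e3 : rr d z ≤ 101 / 100 * (q.κ₁ * q.R) := by
    unfold rr
    rw [Real.sqrt_le_left (by positivity)]
    exact e2
  have e4 := hq.lS _ hr
  have e5 : ff q d z ≤ -(3 * (q.κ₁ * q.R)) := by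
    unfold ff
    nlinarith
  obtain ⟨k, k1, -, k3⟩ := hd.sl.u_form (ff q d z, rr d z) hr
  have e6 := (abs_le.1 (hd.sl.G_u (ff q d z, rr d z) hr)).2
  have e7 := deep_num hq.κ hq.R hq.r1 hq.r2 hq.ex hr (by linarith) e5 k1
  have e8 := Real.exp_pos (k * ff q d z)
  rw [k3] at e6
  have e9 := hq.es
  change q.D 1 0 (ff q d z, rr d z) ≤ _
  have e10 : q.es * Real.exp (k * ff q d z) ≤ 1 * Real.exp (k * ff q d z) := by gcongr
  simp only at e6
  linarith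

end Vale.Agent.P088.R2.H475.A
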